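import Vale.Agent.P347.Bdl.B7
import Vale.Agent.P347.Bdl.B8

/-! Hand-in for P347: the dimension exponent of the query complexity vanishes. -/

open MeasureTheory Filter

namespace Vale.Agent.Results.P347.Zero

open Vale.Agent.P347

/-- For every `δ > 0` and all large `d` there is an algorithm making at most `d ^ δ`
queries which samples every target of the class within total variation `1/10`; consequently
`log Q(d) / log d` tends to `0` and the dimension exponent (its limsup) is `0`. -/
theorem result :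
    (∀ δ : ℝ, 0 < δ → ∀ᶠ d : ℕ in atTop, ∃ q : ℕ, (q : ℝ) ≤ (d : ℝ) ^ δ ∧
      ∃ A : Algo d q, A.Good) ∧
    Tendsto (fun d : ℕ => Real.log (Q d) / Real.log d) atTop (nhds 0) ∧
    limsup (fun d : ℕ => ((Real.log (Q d) / Real.log d : ℝ) : EReal)) atTop = 0 := by
  have hmain : ∀ δ : ℝ, 0 < δ → ∀ᶠ d : ℕ in atTop, ∃ q : ℕ, (q : ℝ) ≤ (d : ℝ) ^ δ ∧
      ∃ A : Algo d q, A.Good := fun δ hδ => S.main_exists Z.nodes Z.down hδ
  have hlog : ∀ q : ℕ, 0 ≤ Real.log (q : ℝ) := by
    intro q
    rcases Nat.eq_zero_or_pos q with rfl | hq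
    · simp
    · exact Real.log_nonneg (by exact_mod_cast hq)
  have hT : Tendsto (fun d : ℕ => (Real.log (Q d) / Real.log d : ℝ)) atTop (nhds 0) := by
    refine tendsto_order.2 ⟨fun b hb => Eventually.of_forall fun d =>
      lt_of_lt_of_le hb (div_nonneg (hlog _) (hlog _)), fun b hb => ?_⟩
    filter_upwards [hmain (b / 2) (half_pos hb), eventually_ge_atTop 2] with d hd hd2
    obtain ⟨q, hq, A, hA⟩ := hd
    have h1 : Q d ≤ q := Nat.sInf_le (show q ∈ {q | ∃ A : Algo d q, A.Good} from ⟨A, hA⟩)
    have hQ : (Q d : ℝ) ≤ (d : ℝ) ^ (b / 2) := le_trans (by exact_mod_cast h1) hq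
    have hd0 : (1 : ℝ) < d := by exact_mod_cast hd2
    have hl : 0 < Real.log d := Real.log_pos hd0
    have h2 : Real.log (Q d) / Real.log d ≤ b / 2 := by
      rw [div_le_iff₀ hl]
      rcases Nat.eq_zero_or_pos (Q d) with hq0 | hq0
      · rw [hq0]
        simp only [Nat.cast_zero, Real.log_zero]
        positivity
      · have hq' : (0 : ℝ) < Q d := by exact_mod_cast hq0
        have h3 := Real.log_le_log hq' hQ
        rwa [Real.log_rpow (by linarith)] at h3
    linarith
  exact ⟨hmain, hT, ((continuous_coe_real_ereal.tendsto 0).comp hT).limsup_eq⟩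

end Vale.Agent.Results.P347.Zero
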